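import Vale.Agent.FK.Defs

/-!
# P063 (Friedgut-Kalai): statements of the parts (specification only; never import in a hand-in)

Every part: file `Vale/Agent/FK/PartX.lean`, `namespace Vale.Agent.FK`, exactly this statement.
-/

namespace Vale.Agent.FK.Stub

open Finset Vale.Agent.FK

variable {E : Type} [Fintype E] [DecidableEq E]

/-! ## Part A: Fourier basis -/

/-- PART A1 (product formula). `Finset.prod_univ_sum` / `Fintype.piFinset`. -/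
theorem Ex_prod (p : ℝ) (u : E → Bool → ℝ) :
    Ex p (fun x => ∏ e, u e (x e)) = ∏ e, (p * u e true + (1 - p) * u e false) := by
  sorry

/-- PART A2 (orthonormality) -/
theorem Ex_chi (p : ℝ) (hp0 : 0 < p) (hp1 : p < 1) (S T : Finset E) :
    Ex p (fun x => chi p S x * chi p T x) = if S = T then 1 else 0 := by
  sorry

/-- PART A3 (expansion).  `∑ S, chi S x * chi S y = ∏ (1 + r(x_e) r(y_e))` (`Finset.prod_one_add`),
`1 + r(b) r(b') = 0` if `b ≠ b'`, `1 / weight` if `b = b'`. -/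
theorem expand (p : ℝ) (hp0 : 0 < p) (hp1 : p < 1) (f : (E → Bool) → ℝ) (x : E → Bool) :
    f x = ∑ S : Finset E, fc p f S * chi p S x := by
  sorry

/-- PART A4 (Parseval) -/
theorem parseval (p : ℝ) (hp0 : 0 < p) (hp1 : p < 1) (f g : (E → Bool) → ℝ) :
    Ex p (fun x => f x * g x) = ∑ S : Finset E, fc p f S * fc p g S := by
  sorry

/-- PART A5 (coefficients of a finite combination of characters) -/
theorem fc_sum (p : ℝ) (hp0 : 0 < p) (hp1 : p < 1) (a : Finset E → ℝ) (S : Finset E) :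
    fc p (fun x => ∑ T : Finset E, a T * chi p T x) S = a S := by
  sorry

/-! ## Part B: derivatives, averages, restrictions -/

/-- PART B1 -/
theorem fc_dd (p : ℝ) (hp0 : 0 < p) (hp1 : p < 1) (f : (E → Bool) → ℝ) (i : E) (S : Finset E) :
    fc p (dd i f) S = if i ∈ S then 0 else fc p f (insert i S) / Real.sqrt (p * (1 - p)) := by
  sorry

/-- PART B2 -/
theorem fc_avg (p : ℝ) (hp0 : 0 < p) (hp1 : p < 1) (f : (E → Bool) → ℝ) (K S : Finset E) :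
    fc p (avg p K f) S = if Disjoint S K then fc p f S else 0 := by
  sorry

/-- PART B3 (restriction) -/
theorem fc_res (p : ℝ) (hp0 : 0 < p) (hp1 : p < 1) (f : (E → Bool) → ℝ) (J A : Finset E)
    (x : E → Bool) :
    fc p (res f J x) A =
      if A ⊆ J then ∑ S ∈ univ.filter (fun S : Finset E => S ∩ J = A),
        fc p f S * chi p (S \ J) x else 0 := by
  sorry

/-- PART B4 (consequence of B3 and Parseval: average weight of restrictions) -/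
theorem Ex_res_sq (p : ℝ) (hp0 : 0 < p) (hp1 : p < 1) (f : (E → Bool) → ℝ) (J : Finset E)
    (ψ : Finset E → ℝ) :
    Ex p (fun x => ∑ A : Finset E, ψ A * fc p (res f J x) A ^ 2) =
      ∑ S : Finset E, ψ (S ∩ J) * fc p f S ^ 2 := by
  sorry

/-- PART B5 -/
theorem infl_sq (p : ℝ) (hp0 : 0 < p) (hp1 : p < 1) (f : (E → Bool) → ℝ) (i : E) :
    p * (1 - p) * Ex p (fun x => dd i f x ^ 2) =
      ∑ S ∈ univ.filter (fun S : Finset E => i ∈ S), fc p f S ^ 2 := by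
  sorry

/-! ## Part C: logarithmic Sobolev inequality -/

/-- PART C1 (two points).  `λ = min p (1-p)`.  If `|h₁| ≥ 2|h₀|` (`h₁` the value of probability `λ`):
`Ent ≤ E h² log(h²/E h²) ≤ λ h₁² log(1/λ) + λ h₀²`; otherwise `Ent(h²) ≤ Var(h²)/E h² ≤ 9 λ (h₁-h₀)²`. -/
theorem logsob_two (p : ℝ) (hp0 : 0 < p) (hp1 : p < 1) (a b : ℝ) :
    Real.negMulLog (p * a ^ 2 + (1 - p) * b ^ 2) ≤
      p * Real.negMulLog (a ^ 2) + (1 - p) * Real.negMulLog (b ^ 2) +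
        CL p * (p * (1 - p) * (a - b) ^ 2) := by
  sorry

/-- PART C2 (logarithmic Sobolev inequality, tensorised).  Finset induction on the set `K` of averaged
coordinates: `Ex (negMulLog (avg K h²)) ≤ Ex (negMulLog h²) + CL ∑_{e∈K} p(1-p) Ex (dd e h)²`; in the
step use C1 for `k = √(avg K h²)` and `|k(1) - k(0)|² ≤ avg K (dd e h)²` (triangle inequality in L²).
Then Part B5. -/
theorem logsob (p : ℝ) (hp0 : 0 < p) (hp1 : p < 1) (h : (E → Bool) → ℝ) :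
    Real.negMulLog (Ex p (fun x => h x ^ 2)) ≤
      Ex p (fun x => Real.negMulLog (h x ^ 2)) + CL p * tot p h := by
  sorry

/-! ## Part D: hypercontractivity -/

/-- PART D1 (Bonami, biased).  Induction on the set of coordinates: `h = r_e u + v`;
`E r³ ≤ λ^{-1/2}`, `E r⁴ ≤ 1/λ`. -/
theorem bonami (p : ℝ) (hp0 : 0 < p) (hp1 : p < 1) (d : ℕ) (h : (E → Bool) → ℝ)
    (hd : ∀ S : Finset E, d < S.card → fc p h S = 0) :
    Ex p (fun x => h x ^ 4) ≤ QQ p ^ d * (Ex p (fun x => h x ^ 2)) ^ 2 := by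
  sorry

/-- PART D2 (dual form), uses D1 and Cauchy-Schwarz: with `g` the part of degree `≤ d` of `G`,
`(E g²)⁴ = (E g G)⁴ ≤ E g⁴ (E|G|)³`. -/
theorem bonami_dual (p : ℝ) (hp0 : 0 < p) (hp1 : p < 1) (d : ℕ) (G : (E → Bool) → ℝ)
    (hG : ∀ x, |G x| ≤ 1) :
    (∑ S ∈ univ.filter (fun S : Finset E => S.card ≤ d), fc p G S ^ 2) ^ 2 ≤
      QQ p ^ d * (Ex p (fun x => |G x|)) ^ 3 := by
  sorry

/-! ## Part E: low-degree part of a derivative -/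

/-- PART E, uses B1, B2, D2 with `G = avg K (dd i g)`. -/
theorem lowpart (p : ℝ) (hp0 : 0 < p) (hp1 : p < 1) (g : (E → Bool) → ℝ) (hg : Bl g) (i : E)
    (K : Finset E) (m : ℕ) :
    (∑ A ∈ univ.filter (fun A : Finset E => i ∈ A ∧ A ∩ K ⊆ {i} ∧ A.card ≤ m), fc p g A ^ 2) ^ 2 ≤
      (p * (1 - p)) ^ 2 * QQ p ^ m * (Ex p (fun x => |dd i g x|)) ^ 3 := by
  sorry

/-! ## Part F: entropy subadditivity -/

/-- PART F.  Gibbs' inequality with `q A = w ∏_b (P_b (A_b) / w)`: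
`∑ P log(1/P) ≤ ∑ P log(1/q) + ∑ q - ∑ P`, `∑ q = w`. -/
theorem subadd (k : ℕ) (hk : 1 ≤ k) (c : E → Fin k) (P : Finset E → ℝ) (hP : ∀ A, 0 ≤ P A) :
    ∑ A : Finset E, Real.negMulLog (P A) + (k - 1) * Real.negMulLog (∑ A : Finset E, P A) ≤
      ∑ b : Fin k, ∑ B : Finset E, Real.negMulLog
        (∑ A ∈ univ.filter (fun A : Finset E => A.filter (fun e => c e = b) = B), P A) := by
  sorry

/-! ## Part G: the inner estimate -/

/-- PART G1 (scalar).  `τ = t/a`; if `τ ≥ Q^{-4m}` then `τ log(1/τ) ≤ 4 m τ log Q`; otherwise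
`ι ≥ τ^{3/4}` and `τ log (1/τ) ≤ (4/e) τ^{3/4} ≤ 2 ι`. -/
theorem scalar (a ι t Q : ℝ) (m : ℕ) (ha : 0 < a) (ha1 : a ≤ 1) (hι : 0 ≤ ι) (ht0 : 0 ≤ t)
    (ht1 : t ≤ a * ι) (hι1 : ι ≤ 1) (hQ : 1 ≤ Q) (ht2 : t ^ 2 ≤ a ^ 2 * Q ^ m * ι ^ 3) :
    Real.negMulLog t ≤ (Real.log (1 / a) + 4 * m * Real.log Q) * t + 2 * (a * ι) := by
  sorry

/-- PART G2 (average over colourings).  For `e ∈ A`: the colourings for which another element of `A`
has the colour of `e` are at most a `(|A|-1)/k` part. -/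
theorem colour_avg (k : ℕ) (hk : 1 ≤ k) (A : Finset E) :
    ∑ c : E → Fin k, ∑ b : Fin k, (if 2 ≤ (A.filter (fun e => c e = b)).card then
      ((A.filter (fun e => c e = b)).card : ℝ) else 0) ≤
      (k : ℝ) ^ (Fintype.card E) * ((A.card : ℝ) ^ 2 / k) := by
  sorry

/-- PART G3 (inner estimate), uses E, F, G1, G2 (average F over all colourings).
`B = ∅`: `negMulLog (w - u) - negMulLog w ≤ u`; `|B| ≥ 2`: `negMulLog x ≤ 2|B| log N x + N^{-2|B|}`;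
`B = {i}`: E (with `K` the colour class) and G1. -/
theorem inner (p : ℝ) (hp0 : 0 < p) (hp1 : p < 1) (g : (E → Bool) → ℝ) (hg : Bl g) (m k : ℕ)
    (hm : 1 ≤ m) (hk : 1 ≤ k) (hN : 2 ≤ Fintype.card E) (hkN : k ≤ Fintype.card E) :
    ∑ A ∈ univ.filter (fun A : Finset E => 1 ≤ A.card ∧ A.card ≤ m), Real.negMulLog (fc p g A ^ 2) ≤
      3 + 2 * tot p g + cin p (Fintype.card E) m k *
        ∑ A ∈ univ.filter (fun A : Finset E => 1 ≤ A.card ∧ A.card ≤ m),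
          (A.card : ℝ) * fc p g A ^ 2 := by
  sorry

/-! ## Part H: the outer estimate -/

/-- PART H1, uses B3, C2: for `A ⊆ J` apply C2 to `h x = fc p (res f J x) A`. -/
theorem outer (p : ℝ) (hp0 : 0 < p) (hp1 : p < 1) (f : (E → Bool) → ℝ) (J : Finset E) (m : ℕ) :
    ∑ A ∈ univ.filter (fun A : Finset E => A ⊆ J ∧ 1 ≤ A.card ∧ A.card ≤ m), Real.negMulLog
      (∑ S ∈ univ.filter (fun S : Finset E => S ∩ J = A), fc p f S ^ 2) ≤
    Ex p (fun x => ∑ A ∈ univ.filter (fun A : Finset E => 1 ≤ A.card ∧ A.card ≤ m),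
      Real.negMulLog (fc p (res f J x) A ^ 2)) +
    CL p * ∑ S ∈ univ.filter (fun S : Finset E => 1 ≤ (S ∩ J).card ∧ (S ∩ J).card ≤ m),
      (S.card : ℝ) * fc p f S ^ 2 := by
  sorry

/-- PART H2 (outer + inner), uses H1, G3, B4. -/
theorem outer_inner (p : ℝ) (hp0 : 0 < p) (hp1 : p < 1) (f : (E → Bool) → ℝ) (hf : Bl f)
    (J : Finset E) (m k : ℕ) (hm : 1 ≤ m) (hk : 1 ≤ k) (hN : 2 ≤ Fintype.card E)
    (hkN : k ≤ Fintype.card E) :
    ∑ A ∈ univ.filter (fun A : Finset E => A ⊆ J ∧ 1 ≤ A.card ∧ A.card ≤ m), Real.negMulLog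
      (∑ S ∈ univ.filter (fun S : Finset E => S ∩ J = A), fc p f S ^ 2) ≤
    3 + 2 * ∑ S : Finset E, ((S ∩ J).card : ℝ) * fc p f S ^ 2 +
    cin p (Fintype.card E) m k *
      ∑ S ∈ univ.filter (fun S : Finset E => 1 ≤ (S ∩ J).card ∧ (S ∩ J).card ≤ m),
        ((S ∩ J).card : ℝ) * fc p f S ^ 2 +
    CL p * ∑ S ∈ univ.filter (fun S : Finset E => 1 ≤ (S ∩ J).card ∧ (S ∩ J).card ≤ m),
      (S.card : ℝ) * fc p f S ^ 2 := by
  sorry

/-! ## Part I: the random set -/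

/-- PART I1 -/
theorem Ex_sel_card (δ : ℝ) (h0 : 0 ≤ δ) (h1 : δ ≤ 1) (S : Finset E) :
    Ex δ (fun y => ((sel S y).card : ℝ)) = δ * S.card := by
  sorry

/-- PART I2: `∑_{e ∈ S} P(e ∈ J, |S ∩ J| ≤ m) = ∑ δ P(|(S \ e) ∩ J| ≤ m - 1)` and
`|S ∩ J| ≤ |(S \ e) ∩ J| + 1`. -/
theorem Ex_sel_card_le (δ : ℝ) (h0 : 0 ≤ δ) (h1 : δ ≤ 1) (m : ℕ) (S : Finset E) :
    Ex δ (fun y => if 1 ≤ (sel S y).card ∧ (sel S y).card ≤ m then ((sel S y).card : ℝ) else 0) ≤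
      δ * S.card * pl δ m S := by
  sorry

/-- PART I3 (Chernoff): `1[X ≤ m] ≤ e^{m - X}`, `E e^{-X} = (1 - δ (1 - 1/e))^{|S|}`. -/
theorem pl_le (δ : ℝ) (h0 : 0 ≤ δ) (h1 : δ ≤ 1) (m : ℕ) (S : Finset E)
    (h : 4 * (m : ℝ) ≤ δ * S.card) : pl δ m S ≤ Real.exp (-(δ * S.card / 3)) := by
  sorry

/-- PART I4 (Markov) -/
theorem half_le_pl (δ : ℝ) (h0 : 0 ≤ δ) (h1 : δ ≤ 1) (m : ℕ) (hm : 1 ≤ m) (S : Finset E)
    (h : 2 * (δ * S.card) ≤ m) : 1 / 2 ≤ pl δ m S := by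
  sorry

/-- PART I5: `m (1-δ) P(N = m) ≤ δ |S| P(N = m - 1)` for `N = |S ∩ J|`. -/
theorem pl_step (δ : ℝ) (h0 : 0 ≤ δ) (h1 : δ ≤ 1 / 5) (m : ℕ) (hm : 1 ≤ m) (S : Finset E)
    (h : δ * S.card ≤ 4 * m) : pl δ m S ≤ 6 * pl δ (m - 1) S := by
  sorry

/-- PART I6 (independence of disjoint sets, exactly one element) -/
theorem one_elt (δ : ℝ) (h0 : 0 ≤ δ) (h1 : δ ≤ 1) (m : ℕ) (S M : Finset E) (hM : M ⊆ S) :
    (M.card : ℝ) * δ * (1 - δ) ^ (M.card - 1) * pl δ m (S \ M) =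
      Ex δ (fun y => if (sel M y).card = 1 ∧ (sel (S \ M) y).card ≤ m then 1 else 0) := by
  sorry

/-! ## Part J: vertices of a random subset -/

/-- PART J1 (low degree vertices).  `H` = vertices of degree `> D`: `|H| ≤ r |S| / D`; the edges inside
`H` are at most `|H|^r / r! ≤ |S|/2`. -/
theorem low_degree (n r : ℕ) (hr : 2 ≤ r) (δ : ℝ) (h0 : 0 < δ) (S : Finset (Edge n r))
    (h : (r * δ) ^ r * (S.card : ℝ) ^ (r - 1) ≤ 1) :
    (S.card : ℝ) / 2 ≤ ∑ x ∈ univ.filter (fun x : Fin n =>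
      δ * ((S.filter (fun e => x ∈ e.1)).card : ℝ) ≤ 1), ((S.filter (fun e => x ∈ e.1)).card : ℝ) := by
  sorry

/-- PART J2, uses I5, I6, J1: for a low degree vertex `x` (degree `d`),
`P(x touched, |S∩J| ≤ m) ≥ P(exactly one edge at x) P(N_x ≤ m-1) ≥ d δ (1-δ)^{d-1} P(N_x ≤ m)/6`,
`P(N_x ≤ m) ≥ P(|S∩J| ≤ m)`, `(1-δ)^{1/δ} ≥ 1/4`. -/
theorem vertex_count (n r : ℕ) (hr : 2 ≤ r) (δ : ℝ) (h0 : 0 < δ) (h1 : δ ≤ 1 / 5) (m : ℕ)
    (hm : 1 ≤ m) (S : Finset (Edge n r)) (hS : δ * S.card ≤ 4 * m)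
    (h : (r * δ) ^ r * (S.card : ℝ) ^ (r - 1) ≤ 1) :
    1 / 48 * δ * S.card * pl δ m S ≤
      Ex δ (fun y => if 1 ≤ (sel S y).card ∧ (sel S y).card ≤ m then ((vs (sel S y)).card : ℝ)
        else 0) := by
  sorry

/-! ## Part K: symmetry -/

/-- PART K1 (counting).  `Q X = ∑_{|S| ≤ T, X ⊆ vs S} μ S` depends only on `|X| = a`, and
`∑_{|X| = a} Q X = ∑ μ S (|vs S| choose a) ≤ (rT choose a) ∑ μ`. -/
theorem sym_count (n r T : ℕ) (hn : 1 ≤ n) (hT : r * T ≤ n) (μ : Finset (Edge n r) → ℝ)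
    (h0 : ∀ S, 0 ≤ μ S)
    (hinv : ∀ (σ : Equiv.Perm (Fin n)) S, μ (S.image (permEdge σ)) = μ S) (X : Finset (Fin n)) :
    ∑ S ∈ univ.filter (fun S : Finset (Edge n r) => S.card ≤ T ∧ X ⊆ vs S), μ S ≤
      ((r * T : ℕ) / (n : ℝ)) ^ X.card * ∑ S, μ S := by
  sorry

/-- PART K2, uses K1.  `W = p + q` (light, heavy); `negMulLog W ≥ p log (1/W) ≥ (p - q) v G`. -/
theorem sym_lower (n r T m : ℕ) (hn : 1 ≤ n) (hT : r * T ≤ n) (hT1 : 1 ≤ r * T)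
    (μ : Finset (Edge n r) → ℝ) (h0 : ∀ S, 0 ≤ μ S) (h1 : ∑ S, μ S ≤ 1)
    (hinv : ∀ (σ : Equiv.Perm (Fin n)) S, μ (S.image (permEdge σ)) = μ S)
    (G : ℝ) (hG0 : 0 ≤ G) (hG : G ≤ Real.log ((n : ℝ) / (r * T : ℕ)) - Real.log 2)
    (J : Finset (Edge n r)) :
    G * (∑ S ∈ univ.filter (fun S : Finset (Edge n r) => S.card ≤ T ∧ 1 ≤ (S ∩ J).card ∧
        (S ∩ J).card ≤ m), ((vs (S ∩ J)).card : ℝ) * μ S -
      ∑ S ∈ univ.filter (fun S : Finset (Edge n r) => T < S.card ∧ 1 ≤ (S ∩ J).card ∧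
        (S ∩ J).card ≤ m), ((vs (S ∩ J)).card : ℝ) * μ S) ≤
      ∑ A ∈ univ.filter (fun A : Finset (Edge n r) => A ⊆ J ∧ 1 ≤ A.card ∧ A.card ≤ m),
        Real.negMulLog (∑ S ∈ univ.filter (fun S : Finset (Edge n r) => S ∩ J = A), μ S) := by
  sorry

/-- PART K3 (invariance of the Fourier weights) -/
theorem fc_inv (n r : ℕ) (p : ℝ) (f : (Edge n r → Bool) → ℝ)
    (hinv : ∀ (σ : Equiv.Perm (Fin n)) x, f (fun e => x (permEdge σ e)) = f x)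
    (σ : Equiv.Perm (Fin n)) (S : Finset (Edge n r)) :
    fc p f (S.image (permEdge σ)) = fc p f S := by
  sorry

/-- PART K4 (KKL for symmetric functions), uses E (with `K = ∅`), K3, B5: all the influences are equal
(`permEdge` is transitive), to `tot p f / (p (1-p) N)`. -/
theorem kkl (n r : ℕ) (hr : 1 ≤ r) (hn : r ≤ n) (p : ℝ) (hp0 : 0 < p) (hp1 : p < 1)
    (f : (Edge n r → Bool) → ℝ) (hf : Bl f)
    (hinv : ∀ (σ : Equiv.Perm (Fin n)) x, f (fun e => x (permEdge σ e)) = f x) (d : ℕ) :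
    (∑ S ∈ univ.filter (fun S : Finset (Edge n r) => 1 ≤ S.card ∧ S.card ≤ d), fc p f S ^ 2) ^ 2 ≤
      QQ p ^ d * tot p f ^ 3 / (p * (1 - p) * (Fintype.card (Edge n r) : ℝ)) := by
  sorry

/-! ## Part M: main inequality -/

/-- PART M, uses H2, I1, I2, I3, J2, K2, K3 (average over the random set `J = {e : y e = true}`).
`X` = light part, heavy part `≤ (4m/δ) e^{-4m/3}`. -/
theorem main_ineq (n r : ℕ) (hr : 2 ≤ r) (hn : r < n) (p δ : ℝ) (hp0 : 0 < p) (hp1 : p < 1)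
    (h0 : 0 < δ) (h1 : δ ≤ 1 / 5) (m k T : ℕ) (hm : 1 ≤ m) (hk : 1 ≤ k)
    (hkN : k ≤ Fintype.card (Edge n r)) (hT : T = ⌊4 * m / δ⌋₊) (hTn : r * T ≤ n)
    (hD : (r * δ) ^ r * (4 * m / δ) ^ (r - 1) ≤ 1) (G : ℝ) (hG0 : 0 ≤ G)
    (hG : G ≤ Real.log ((n : ℝ) / (r * T : ℕ)) - Real.log 2)
    (f : (Edge n r → Bool) → ℝ) (hf : Bl f)
    (hinv : ∀ (σ : Equiv.Perm (Fin n)) x, f (fun e => x (permEdge σ e)) = f x) (X : ℝ)
    (hX : X = ∑ S ∈ univ.filter (fun S : Finset (Edge n r) => S.card ≤ T),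
      (S.card : ℝ) * pl δ m S * fc p f S ^ 2) :
    G / 48 * δ * X ≤ 3 + 2 * δ * tot p f +
      (cin p (Fintype.card (Edge n r)) m k * δ + CL p) * (X + 4 * m / δ * Real.exp (-(4 * m / 3))) +
      G * (r * m) * Real.exp (-(4 * m / 3)) := by
  sorry

/-- PART N (asymptotics), uses M, K4, I4: lower bound for the total influence.
`δ = C₀ Λ / log n`, `Λ = log (1/lam p) + 3`, `m = ⌊(r^r δ)^{-1/(r-1)} / 4⌋`, `k = C₁ m`. -/
theorem tot_lower (r : ℕ) (hr : 2 ≤ r) (v : ℝ) (hv : 0 < v) : ∃ κ : ℝ, 0 < κ ∧ ∃ n0 : ℕ,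
    ∀ n : ℕ, n0 ≤ n → ∀ p : ℝ, 0 < p → p < 1 → 1 / Real.log n ^ 2 ≤ lam p →
    ∀ f : (Edge n r → Bool) → ℝ, Bl f →
    (∀ (σ : Equiv.Perm (Fin n)) x, f (fun e => x (permEdge σ e)) = f x) →
    v ≤ ∑ S ∈ univ.filter (fun S : Finset (Edge n r) => 1 ≤ S.card), fc p f S ^ 2 →
    κ * (Real.log n / (Real.log (1 / lam p) + 3)) ^ ((r : ℝ) / (r - 1)) ≤ tot p f := by
  sorry

/-- PART O (Russo's formula) -/
theorem russo (f : (E → Bool) → ℝ) (p : ℝ) (hp0 : 0 < p) (hp1 : p < 1) :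
    HasDerivAt (fun t => Ex t f) (Ex p (fun x => ∑ e, dd e f x)) p := by
  sorry

end Vale.Agent.FK.Stub
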